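import Mathlib
import Crest.Agent.H0071.Main

set_option autoImplicit false
set_option linter.unusedSectionVars false

namespace Crest.Agent.H0072

open Finset

variable {α β : Type*} [Fintype α] [DecidableEq α] [Fintype β] [DecidableEq β]

/-- Fourier-type coefficient of the event `A`. -/
noncomputable def co (w ψ : β → ℝ) (A : Finset (α → β)) (U : Finset α) : ℝ :=
  ∑ τ ∈ A, (∏ x, w (τ x)) * ∏ x ∈ U, ψ (τ x)

lemma kernel_id (w ψ : β → ℝ) (A : Finset (α → β)) (S : Finset α) (t : ℝ) :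
    ∑ τ ∈ A, ∑ σ ∈ A, (∏ x, w (τ x)) * (∏ x, w (σ x)) * ∏ x ∈ S, (1 + t * (ψ (τ x) * ψ (σ x)))
      = ∑ U ∈ S.powerset, t ^ U.card * co w ψ A U ^ 2 := by
  simp_rw [Finset.prod_one_add, Finset.mul_sum]
  rw [Finset.sum_congr rfl (fun τ _ => Finset.sum_comm), Finset.sum_comm]
  refine Finset.sum_congr rfl fun U _ => ?_
  unfold co
  rw [sq, Finset.sum_mul_sum, Finset.mul_sum]
  refine Finset.sum_congr rfl fun τ _ => ?_
  rw [Finset.mul_sum]
  refine Finset.sum_congr rfl fun σ _ => ?_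
  rw [Finset.prod_mul_distrib, Finset.prod_mul_distrib, Finset.prod_const]
  ring

lemma bessel (w ψ : β → ℝ) (hw : ∀ b, 0 ≤ w b) (hw1 : ∑ b, w b = 1) (hψ : ∑ b, w b * ψ b = 0)
    (t : ℝ) (ht : ∀ a b, 0 ≤ 1 + t * (ψ a * ψ b)) (A : Finset (α → β)) :
    ∑ U : Finset α, t ^ U.card * co w ψ A U ^ 2 ≤ co w ψ A ∅ := by
  rw [← Finset.powerset_univ, ← kernel_id]
  unfold co
  refine Finset.sum_le_sum fun τ _ => ?_
  have hW : 0 ≤ ∏ x, w (τ x) := Finset.prod_nonneg fun x _ => hw _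
  calc ∑ σ ∈ A, (∏ x, w (τ x)) * (∏ x, w (σ x)) * ∏ x, (1 + t * (ψ (τ x) * ψ (σ x)))
      ≤ ∑ σ : α → β, (∏ x, w (τ x)) * (∏ x, w (σ x)) * ∏ x, (1 + t * (ψ (τ x) * ψ (σ x))) := by
        refine Finset.sum_le_sum_of_subset_of_nonneg (Finset.subset_univ _) fun σ _ _ => ?_
        exact mul_nonneg (mul_nonneg hW (Finset.prod_nonneg fun x _ => hw _))
          (Finset.prod_nonneg fun x _ => ht _ _)
    _ = (∏ x, w (τ x)) * ∑ σ : α → β, ∏ x, (w (σ x) * (1 + t * (ψ (τ x) * ψ (σ x)))) := by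
        rw [Finset.mul_sum]
        refine Finset.sum_congr rfl fun σ _ => ?_
        rw [Finset.prod_mul_distrib]; ring
    _ = (∏ x, w (τ x)) * ∏ x, ∑ b, (w b * (1 + t * (ψ (τ x) * ψ b))) := by
        rw [Fintype.prod_sum]
    _ = (∏ x, w (τ x)) * ∏ x ∈ (∅ : Finset α), ψ (τ x) := by
        congr 1
        rw [Finset.prod_empty]
        refine Finset.prod_eq_one fun x _ => ?_
        have : ∀ b, w b * (1 + t * (ψ (τ x) * ψ b)) = w b + (t * ψ (τ x)) * (w b * ψ b) := by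
          intro b; ring
        simp_rw [this]
        rw [Finset.sum_add_distrib, ← Finset.mul_sum, hw1, hψ]; ring

/-- The spectral step: an explicit fractional cover, then the integral one. -/
theorem spectral (w : β → ℝ) (hw : ∀ b, 0 ≤ w b) (hw1 : ∑ b, w b = 1) (b0 : β) (P : ℝ)
    (hP0 : 0 < P) (hP1 : P < 1) (hb0 : w b0 = 1 - P) (A : Finset (α → β))
    (hA : 2 / 3 ≤ ∑ τ ∈ A, ∏ x, w (τ x)) (r : ℝ) (hr0 : 0 ≤ r) (hr : r ≤ P / (1 - P))
    (F : Finset (Finset α)) (hF : ∀ S ∈ F, ∀ τ ∈ A, ∀ σ ∈ A, ∃ x ∈ S, τ x = b0 ∧ σ x = b0) :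
    ∃ G : Finset (Finset α), (∀ H ∈ F, ∃ S ∈ G, S ⊆ H) ∧
      ∑ S ∈ G, (r / 2 ^ 23) ^ S.card ≤ 1 / 2 := by
  set ψ : β → ℝ := fun b => if b = b0 then -P else 1 - P with hψdef
  have h1P : 0 < 1 - P := by linarith
  have hψ : ∑ b, w b * ψ b = 0 := by
    have : ∀ b, w b * ψ b = (1 - P) * w b - (if b = b0 then w b else 0) := by
      intro b; simp only [hψdef]; split_ifs <;> ring
    simp_rw [this]
    rw [Finset.sum_sub_distrib, ← Finset.mul_sum, hw1, Finset.sum_ite_eq']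
    simp [hb0]
  set μ : ℝ := co w ψ A ∅ with hμ
  have hμA : μ = ∑ τ ∈ A, ∏ x, w (τ x) := by simp [hμ, co]
  have hμ0 : 2 / 3 ≤ μ := hμA ▸ hA
  have hμpos : 0 < μ := by linarith
  have hB := bessel w ψ hw hw1 hψ (1 / (P * (1 - P))) (by
    intro a b
    have h : 1 + 1 / (P * (1 - P)) * (ψ a * ψ b) = (P * (1 - P) + ψ a * ψ b) / (P * (1 - P)) := by
      field_simp
    rw [h]
    refine div_nonneg ?_ (by positivity)
    simp only [hψdef]
    split_ifs <;> nlinarith) A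
  rw [← hμ] at hB
  refine Crest.Agent.H0071.frac_to_int' F r hr0
    (fun U => if U = ∅ then 0 else (1 / P ^ 2) ^ U.card * co w ψ A U ^ 2 / μ ^ 2) ?_ ?_ ?_
  · intro U; split_ifs <;> positivity
  · intro S hS
    have hk := kernel_id w ψ A S (-(1 / P ^ 2))
    rw [Finset.sum_eq_zero] at hk
    swap
    · intro τ hτ
      refine Finset.sum_eq_zero fun σ hσ => ?_
      obtain ⟨x, hx, h1, h2⟩ := hF S hS τ hτ σ hσ
      rw [Finset.prod_eq_zero hx, mul_zero]
      simp only [hψdef, h1, h2, if_true]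
      field_simp
      ring
    have he : (∅ : Finset α) ∈ S.powerset := by simp
    rw [← Finset.add_sum_erase _ _ he] at hk ⊢
    simp only [Finset.card_empty, pow_zero, one_mul, if_true, zero_add] at hk ⊢
    rw [← hμ] at hk
    have h2 : μ ^ 2 ≤ ∑ U ∈ S.powerset.erase ∅, (1 / P ^ 2) ^ U.card * co w ψ A U ^ 2 := by
      have : -∑ U ∈ S.powerset.erase ∅, (-(1 / P ^ 2)) ^ U.card * co w ψ A U ^ 2 ≤
          ∑ U ∈ S.powerset.erase ∅, (1 / P ^ 2) ^ U.card * co w ψ A U ^ 2 := by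
        rw [← Finset.sum_neg_distrib]
        refine Finset.sum_le_sum fun U _ => ?_
        have h3 : -(-(1 / P ^ 2)) ^ U.card ≤ (1 / P ^ 2) ^ U.card := by
          have := neg_abs_le ((-(1 / P ^ 2)) ^ U.card)
          rw [abs_pow, abs_neg, abs_of_nonneg (by positivity)] at this
          linarith
        have h4 := mul_le_mul_of_nonneg_right h3 (sq_nonneg (co w ψ A U))
        linarith
      linarith
    rw [Finset.sum_congr rfl (g := fun U => (1 / P ^ 2) ^ U.card * co w ψ A U ^ 2 / μ ^ 2)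
      (fun U hU => by rw [if_neg (Finset.ne_of_mem_erase hU)]), ← Finset.sum_div,
      le_div_iff₀ (by positivity)]
    linarith
  · have he : (∅ : Finset α) ∈ (univ : Finset (Finset α)) := mem_univ _
    rw [← Finset.add_sum_erase _ _ he] at hB ⊢
    simp only [Finset.card_empty, pow_zero, one_mul, if_true, zero_add, zero_mul] at hB ⊢
    rw [← hμ] at hB
    have h5 : ∑ U ∈ (univ : Finset (Finset α)).erase ∅,
        (if U = ∅ then 0 else (1 / P ^ 2) ^ U.card * co w ψ A U ^ 2 / μ ^ 2) * r ^ U.card ≤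
        (∑ U ∈ (univ : Finset (Finset α)).erase ∅,
          (1 / (P * (1 - P))) ^ U.card * co w ψ A U ^ 2) / μ ^ 2 := by
      rw [Finset.sum_div]
      refine Finset.sum_le_sum fun U hU => ?_
      rw [if_neg (Finset.ne_of_mem_erase hU)]
      have h6 : (1 / P ^ 2) ^ U.card * r ^ U.card ≤ (1 / (P * (1 - P))) ^ U.card := by
        rw [← mul_pow]
        refine pow_le_pow_left₀ (by positivity) ?_ _
        calc 1 / P ^ 2 * r ≤ 1 / P ^ 2 * (P / (1 - P)) := by gcongr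
          _ = 1 / (P * (1 - P)) := by field_simp
      have h7 : 0 ≤ co w ψ A U ^ 2 / μ ^ 2 := by positivity
      calc (1 / P ^ 2) ^ U.card * co w ψ A U ^ 2 / μ ^ 2 * r ^ U.card
          = ((1 / P ^ 2) ^ U.card * r ^ U.card) * (co w ψ A U ^ 2 / μ ^ 2) := by ring
        _ ≤ (1 / (P * (1 - P))) ^ U.card * (co w ψ A U ^ 2 / μ ^ 2) := by gcongr
        _ = _ := by ring
    refine h5.trans ?_
    rw [div_le_iff₀ (by positivity)]
    nlinarith

end Crest.Agent.H0072
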