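import Mathlib
import Crest.Agent.H0072.Spec

set_option autoImplicit false
set_option linter.unusedSectionVars false

namespace Crest.Agent.H0072

open Finset

variable {α : Type*} [Fintype α] [DecidableEq α]

lemma sum_bool_eq (p : ℝ) (D : Finset (Finset α)) :
    ∑ v : α → Bool, (if (univ.filter fun x => v x = true) ∈ D then
      ∏ x, (if v x = true then p else 1 - p) else 0) =
      ∑ S ∈ D, p ^ S.card * (1 - p) ^ (Fintype.card α - S.card) := by
  rw [← Finset.sum_filter]
  refine Finset.sum_bij' (fun v _ => univ.filter fun x => v x = true)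
    (fun S _ => fun x => decide (x ∈ S)) ?_ ?_ ?_ ?_ ?_
  · intro v hv; exact (mem_filter.1 hv).2
  · intro S hS
    refine mem_filter.2 ⟨mem_univ _, ?_⟩
    convert hS
    ext x; simp
  · intro v _; funext x; simp
  · intro S _; ext x; simp
  · intro v _
    rw [Finset.prod_ite, Finset.prod_const, Finset.prod_const]
    congr 2
    have := Finset.card_filter_add_card_filter_not (s := (univ : Finset α))
      (fun x => v x = true)
    rw [Finset.card_univ] at this
    omega

lemma prob_rows (m : ℕ) (p : ℝ) (D : Finset (Finset α)) :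
    ∑ τ ∈ (univ : Finset (α → Fin m → Bool)).filter
        (fun τ => ∀ i, (univ.filter fun x => τ x i = true) ∈ D),
      ∏ x, ∏ i, (if τ x i = true then p else 1 - p) =
      (∑ S ∈ D, p ^ S.card * (1 - p) ^ (Fintype.card α - S.card)) ^ m := by
  rw [← sum_bool_eq, Finset.sum_filter]
  have h : (∑ v : α → Bool, (if (univ.filter fun x => v x = true) ∈ D then
      ∏ x, (if v x = true then p else 1 - p) else 0)) ^ m =
      ∏ _i : Fin m, ∑ v : α → Bool, (if (univ.filter fun x => v x = true) ∈ D then
      ∏ x, (if v x = true then p else 1 - p) else 0) := by simp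
  rw [h, Fintype.prod_sum]
  refine Fintype.sum_equiv (Equiv.piComm (fun (_ : α) (_ : Fin m) => Bool)) _ _ fun τ => ?_
  simp only [Equiv.piComm_apply, Function.swap]
  by_cases hτ : ∀ i, (univ.filter fun x => τ x i = true) ∈ D
  · rw [if_pos hτ, Finset.prod_comm]
    exact Finset.prod_congr rfl fun i _ => by rw [if_pos (hτ i)]
  · rw [if_neg hτ]
    push Not at hτ
    obtain ⟨i, hi⟩ := hτ
    rw [Finset.prod_eq_zero (mem_univ i)]
    rw [if_neg hi]

theorem main (m k : ℕ) (hm : 0 < m) (hk : 2 * m ≤ k) (p : ℝ) (hp0 : 0 < p) (hp1 : p < 1)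
    (D : Finset (Finset α)) (ε : ℝ) (hε1 : m * ε ≤ 1 / 3)
    (hD : 1 - ε ≤ ∑ S ∈ D, p ^ S.card * (1 - p) ^ (Fintype.card α - S.card)) :
    ∃ G : Finset (Finset α),
      (∀ S : Finset α,
        (∀ f : Fin k → Finset α, (∀ i, f i ∈ D) → ¬ S ⊆ Finset.univ.biUnion f) →
          ∃ I ∈ G, I ⊆ S) ∧
      ∑ I ∈ G, (m * p / 2 ^ 23) ^ I.card ≤ 1 / 2 := by
  classical
  have h1p : 0 < 1 - p := by linarith
  have hQ0 : 0 < (1 - p) ^ m := by positivity
  have hQ1 : (1 - p) ^ m < 1 := pow_lt_one₀ h1p.le (by linarith) hm.ne'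
  have hm1 : (1 : ℝ) ≤ m := by exact_mod_cast hm
  obtain ⟨G, hG1, hG2⟩ := spectral (α := α) (β := Fin m → Bool)
    (fun b => ∏ i, if b i = true then p else 1 - p)
    (fun b => Finset.prod_nonneg fun i _ => by split_ifs <;> linarith)
    (by
      rw [← Fintype.prod_sum (fun (_ : Fin m) (c : Bool) => if c = true then p else 1 - p)]
      simp)
    (fun _ => false) (1 - (1 - p) ^ m) (by linarith) (by linarith) (by simp)
    ((univ : Finset (α → Fin m → Bool)).filter
        (fun τ => ∀ i, (univ.filter fun x => τ x i = true) ∈ D))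
    (by
      rw [prob_rows]
      have hε2 : ε ≤ 1 / 3 := by
        by_contra h
        push Not at h
        nlinarith
      have h1 := one_add_mul_le_pow (a := -ε) (by linarith) m
      have h2 : (1 + -ε) ^ m ≤
          (∑ S ∈ D, p ^ S.card * (1 - p) ^ (Fintype.card α - S.card)) ^ m :=
        pow_le_pow_left₀ (by linarith) (by linarith) m
      linarith)
    (m * p) (by positivity)
    (by
      rw [sub_sub_cancel, le_div_iff₀ hQ0]
      have h1 := one_add_mul_le_pow (a := p) (by linarith) m
      have h2 : (1 + p) ^ m * (1 - p) ^ m ≤ 1 := by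
        rw [← mul_pow]
        exact pow_le_one₀ (by positivity) (by nlinarith)
      nlinarith)
    (univ.filter fun S : Finset α =>
      ∀ f : Fin k → Finset α, (∀ i, f i ∈ D) → ¬ S ⊆ Finset.univ.biUnion f)
    (by
      intro S hS τ hτ σ hσ
      have hS' := (mem_filter.1 hS).2
      have hτ' := (mem_filter.1 hτ).2
      have hσ' := (mem_filter.1 hσ).2
      let f : Fin k → Finset α := fun j =>
        if h : j.val < m then univ.filter fun x => τ x ⟨j.val, h⟩ = true
        else if h' : j.val - m < m then univ.filter fun x => σ x ⟨j.val - m, h'⟩ = true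
        else univ.filter fun x => τ x ⟨0, hm⟩ = true
      have hf : ∀ j, f j ∈ D := by
        intro j
        simp only [f]
        split_ifs
        · exact hτ' _
        · exact hσ' _
        · exact hτ' _
      obtain ⟨x, hxS, hx⟩ := Finset.not_subset.1 (hS' f hf)
      refine ⟨x, hxS, ?_, ?_⟩
      · funext i
        by_contra h
        apply hx
        refine mem_biUnion.2 ⟨⟨i.val, by omega⟩, mem_univ _, ?_⟩
        simp only [f]
        rw [dif_pos i.2]
        simpa using h
      · funext i
        by_contra h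
        apply hx
        refine mem_biUnion.2 ⟨⟨m + i.val, by omega⟩, mem_univ _, ?_⟩
        simp only [f]
        rw [dif_neg (by omega), dif_pos (by have := i.2; omega)]
        simpa using h)
  exact ⟨G, fun S hS => hG1 S (mem_filter.2 ⟨mem_univ _, hS⟩), hG2⟩

end Crest.Agent.H0072
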